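import Vale.Agent.P237.Quant.TailData.N65.tailN65P3Part0
import Vale.Agent.P237.Quant.TailData.N65.tailN65P3Part1
import Vale.Agent.P237.Quant.TailData.N65.tailN65P3Part2
import Vale.Agent.P237.Quant.TailData.N65.tailN65P3Part3
import Vale.Agent.P237.Quant.TailData.N65.tailN65P3Part4
import Vale.Agent.P237.Quant.TailData.N65.tailN65P3Part5
import Vale.Agent.P237.Quant.TailData.N65.tailN65P3Part6

/-!
Tail calibration tailN65P3 in dimension 65. The check. Generated data, checked by the kernel.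
-/

set_option maxRecDepth 100000
set_option linter.all false

namespace Vale.Agent.P237.Quant.TailData

open TailCert


/-- The calibration. -/
noncomputable def tailN65P3 : Cfg :=
  tailN65P3Base.withIvals (List.flatten [tailN65P3L0, tailN65P3L1, tailN65P3L2, tailN65P3L3, tailN65P3L4, tailN65P3L5, tailN65P3L6, tailN65P3L7, tailN65P3L8, tailN65P3L9, tailN65P3L10, tailN65P3L11, tailN65P3L12, tailN65P3L13, tailN65P3L14, tailN65P3L15, tailN65P3L16, tailN65P3L17, tailN65P3L18, tailN65P3L19, tailN65P3L20, tailN65P3L21, tailN65P3L22, tailN65P3L23, tailN65P3L24, tailN65P3L25])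

theorem tailN65P3_parts : [tailN65P3L0, tailN65P3L1, tailN65P3L2, tailN65P3L3, tailN65P3L4, tailN65P3L5, tailN65P3L6, tailN65P3L7, tailN65P3L8, tailN65P3L9, tailN65P3L10, tailN65P3L11, tailN65P3L12, tailN65P3L13, tailN65P3L14, tailN65P3L15, tailN65P3L16, tailN65P3L17, tailN65P3L18, tailN65P3L19, tailN65P3L20, tailN65P3L21, tailN65P3L22, tailN65P3L23, tailN65P3L24, tailN65P3L25].Forall fun l => tailN65P3Base.partUsed tailN65P3Used l = true := by
  simp only [List.forall_cons, List.Forall]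
  exact ⟨tailN65P3L0_ok, tailN65P3L1_ok, tailN65P3L2_ok, tailN65P3L3_ok, tailN65P3L4_ok, tailN65P3L5_ok, tailN65P3L6_ok, tailN65P3L7_ok, tailN65P3L8_ok, tailN65P3L9_ok, tailN65P3L10_ok, tailN65P3L11_ok, tailN65P3L12_ok, tailN65P3L13_ok, tailN65P3L14_ok, tailN65P3L15_ok, tailN65P3L16_ok, tailN65P3L17_ok, tailN65P3L18_ok, tailN65P3L19_ok, tailN65P3L20_ok, tailN65P3L21_ok, tailN65P3L22_ok, tailN65P3L23_ok, tailN65P3L24_ok, tailN65P3L25_ok⟩

theorem tailN65P3_check : tailN65P3.check = true :=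
  Cfg.check_of_parts (by decide +kernel) tailN65P3_parts

end Vale.Agent.P237.Quant.TailData
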