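import Vale.Agent.P237.Quant.TailPartsLink
import Vale.Agent.P237.Quant.RowTables
import Vale.Agent.P237.Quant.EnvelopeTableData.N56
import Vale.Agent.P237.Quant.TailData.N65.tailN65P0
import Vale.Agent.P237.Quant.TailData.N65.tailN65P1
import Vale.Agent.P237.Quant.TailData.N65.tailN65P2
import Vale.Agent.P237.Quant.TailData.N65.tailN65P3
import Vale.Agent.P237.Quant.TailData.N65.tailN65N0
import Vale.Agent.P237.Quant.TailData.N65.tailN65N1

/-!
The tail inequalities of the rows of both sides in dimension 65. Generated.
-/

namespace Vale.Agent.P237.Quant

open TailCert TailData

/-- The tail inequalities of `negRow14` in dimension 65. -/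
theorem negRow14_tailAt65 : negRow14.TailAt 64 := by
  intro P hP
  simp only [negRow14, binsOf, List.mem_cons, List.not_mem_nil, or_false] at hP
  rcases hP with rfl | rfl
  · exact tailBin_negParts tailN65N0_check tailN65N0_parts envTable65_check (by decide +kernel)
  · exact tailBin_negParts tailN65N1_check tailN65N1_parts envTable65_check (by decide +kernel)

/-- The tail inequalities of `posRow55` in dimension 65. -/
theorem posRow55_tailAt65 : posRow55.TailAt 64 := by
  intro P hP
  simp only [posRow55, posRowB, posCuts14, posCuts16, binsOf, List.mem_cons, List.not_mem_nil, or_false] at hP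
  rcases hP with rfl | rfl | rfl | rfl
  · exact tailBin_posParts tailN65P0_check tailN65P0_parts envTable65_check (by decide +kernel)
  · exact tailBin_posParts tailN65P1_check tailN65P1_parts envTable65_check (by decide +kernel)
  · exact tailBin_posParts tailN65P2_check tailN65P2_parts envTable65_check (by decide +kernel)
  · exact tailBin_posParts tailN65P3_check tailN65P3_parts envTable65_check (by decide +kernel)

end Vale.Agent.P237.Quant
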